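import Crest.Agent.N334.AC.M7.Main

/-! # S0520 (helper74): block-norm monitor (M5), pair monitor (M1), pure one-step lemmas -/

set_option autoImplicit false

open Finset Matrix Complex
open scoped Matrix.Norms.L2Operator

namespace Crest.Agent.N334.AC.M5

variable {ι : Type} [Fintype ι] [DecidableEq ι]

/-- column `y` of `G` on `Q` -/
noncomputable def col (A : Matrix ι ι ℂ) (w : ι → ℂ) (Q : Finset ι) (y : ι) : ι → ℂ :=
  cut Q fun a => Gm A w a y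

/-- change of the block `G_{QQ}` at the closing of `y` with coefficient `τ` -/
noncomputable def Y5 (A : Matrix ι ι ℂ) (w : ι → ℂ) (Q : Finset ι) (y : ι) (τ : ℂ) : Matrix ι ι ℂ :=
  (-τ) • vecMulVec (col A w Q y) (col A w Q y)

variable {A : Matrix ι ι ℂ} {w : ι → ℂ} {Q : Finset ι} {y : ι} {τ : ℂ}

theorem nsq_col : nsq (col A w Q y) = ∑ x ∈ Q, ‖Gm A w x y‖ ^ 2 := nsq_cut _ _

theorem cmp_close (h : Adm A w) {v : ℝ} (hne : 1 + ((v : ℂ) - w y) * Gm A w y y ≠ 0) :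
    cmp (Gm A (cls1 w y v)) Q = cmp (Gm A w) Q + Y5 A w Q y (tau (Gm A w y y) (w y) v) := by
  ext a b
  by_cases ha : a ∈ Q <;> by_cases hb : b ∈ Q <;>
    simp [cmp, Y5, col, cut, vecMulVec_apply, ha, hb]
  rw [h.close_G hne, h.G_sym y b]; ring

theorem Y5_symm : (Y5 A w Q y τ)ᵀ = Y5 A w Q y τ := by
  ext a b; simp [Y5, vecMulVec_apply, mul_comm]

theorem cmp_Y5 {Q' : Finset ι} : cmp (Y5 A w Q y τ) Q' = Y5 A w (Q ∩ Q') y τ := by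
  ext a b
  by_cases ha : a ∈ Q' <;> by_cases hb : b ∈ Q' <;>
    simp [cmp, Y5, col, cut, vecMulVec_apply, ha, hb]

theorem Y5_mulVec (v : ι → ℂ) :
    Y5 A w Q y τ *ᵥ v = (-τ * (Gm A w y ⬝ᵥ cut Q v)) • col A w Q y ∨ ¬ Adm A w := by
  by_cases h : Adm A w
  · left
    funext a
    simp only [Y5, mulVec, dotProduct, vecMulVec_apply, Matrix.smul_apply, Pi.smul_apply,
      smul_eq_mul, mul_sum, sum_mul]
    refine sum_congr rfl fun b _ => ?_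
    by_cases hb : b ∈ Q
    · simp only [col, cut, hb, if_true, h.G_sym y b]; ring
    · simp [col, cut, hb]
  · exact Or.inr h

theorem norm_Y5 : ‖Y5 A w Q y τ‖ ≤ ‖τ‖ * ∑ x ∈ Q, ‖Gm A w x y‖ ^ 2 := by
  rw [Y5, norm_smul, norm_neg, ← nsq_col]
  gcongr
  refine abs_le_of_sq_le_sq' ((norm_sq_le_hs _).trans (le_of_eq ?_)) (nsq_nonneg _) |>.2
  simp only [vecMulVec_apply, norm_mul, mul_pow, ← mul_sum, ← sum_mul]
  rw [sq (nsq _)]; rfl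

/-- Ward on a block -/
theorem ward_cut (h : Adm A w) (S : Finset ι) (v : ι → ℂ) :
    ∑ y ∈ S, gam w y * ‖Gm A w y ⬝ᵥ cut Q v‖ ^ 2 ≤ ‖cmp (Gm A w) Q‖ * nsq v := by
  have h1 := h.G_ward (cut Q v)
  have hs : Supp (cut Q v) Q := fun a ha => by simp [cut, ha]
  have hs' : Supp (star (cut Q v)) Q := fun a ha => by simp [cut, ha]
  rw [← form_cmp _ hs' hs] at h1
  have h2 := norm_form_sq_le (cmp (Gm A w) Q) (star (cut Q v)) (cut Q v)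
  rw [nsq_star] at h2
  have h3 := nsq_nonneg (cut Q v)
  have h4 : ‖star (cut Q v) ⬝ᵥ cmp (Gm A w) Q *ᵥ cut Q v‖ ≤ ‖cmp (Gm A w) Q‖ * nsq (cut Q v) :=
    (abs_le_of_sq_le_sq' (h2.trans (le_of_eq (by ring))) (by positivity)).2
  calc _ ≤ ∑ y, gam w y * ‖(Gm A w *ᵥ cut Q v) y‖ ^ 2 :=
        sum_le_sum_of_subset_of_nonneg (subset_univ S) fun b _ _ =>
          mul_nonneg (h.diss b) (by positivity)
    _ ≤ ‖cmp (Gm A w) Q‖ * nsq (cut Q v) := h1.le.trans ((im_le_norm _).trans h4)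
    _ ≤ _ := by gcongr; exact nsq_cut_le _ _

theorem drift_Y5 (h : Adm A w) (S : Finset ι) {β : ι → ℂ} {b : ℝ} (hb : 0 ≤ b)
    (hβ : ∀ y ∈ S, ‖β y‖ ≤ b * gam w y) :
    ‖∑ y ∈ S, Y5 A w Q y (β y)‖ ≤ b * ‖cmp (Gm A w) Q‖ := by
  refine norm_le_of_form (by positivity) fun u v => ?_
  have e : u ⬝ᵥ (∑ y ∈ S, Y5 A w Q y (β y)) *ᵥ v =
      ∑ y ∈ S, -β y * ((Gm A w y ⬝ᵥ cut Q u) * (Gm A w y ⬝ᵥ cut Q v)) := by
    rw [Matrix.sum_mulVec, dotProduct_sum]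
    refine sum_congr rfl fun y _ => ?_
    rw [(Y5_mulVec v).resolve_right (not_not.2 h), dotProduct_smul, smul_eq_mul]
    have : u ⬝ᵥ col A w Q y = Gm A w y ⬝ᵥ cut Q u := sum_congr rfl fun a _ => by
      by_cases ha : a ∈ Q
      · simp only [col, cut, ha, if_true, h.G_sym y a]; ring
      · simp [col, cut, ha]
    rw [this]; ring
  have h1 : ‖u ⬝ᵥ (∑ y ∈ S, Y5 A w Q y (β y)) *ᵥ v‖ ≤ b * ∑ y ∈ S,
      (√(gam w y) * ‖Gm A w y ⬝ᵥ cut Q u‖) * (√(gam w y) * ‖Gm A w y ⬝ᵥ cut Q v‖) := by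
    rw [e, mul_sum]
    refine (norm_sum_le _ _).trans (sum_le_sum fun y hy => ?_)
    rw [norm_mul, norm_neg, norm_mul]
    calc _ ≤ b * gam w y * (‖Gm A w y ⬝ᵥ cut Q u‖ * ‖Gm A w y ⬝ᵥ cut Q v‖) := by
          gcongr; exact hβ y hy
      _ = b * ((√(gam w y) * √(gam w y)) * (‖Gm A w y ⬝ᵥ cut Q u‖ * ‖Gm A w y ⬝ᵥ cut Q v‖)) := by
          rw [Real.mul_self_sqrt (h.diss y)]; ring
      _ = _ := by ring
  have h2 := sum_mul_sq_le_sq_mul_sq S (fun y => √(gam w y) * ‖Gm A w y ⬝ᵥ cut Q u‖)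
    fun y => √(gam w y) * ‖Gm A w y ⬝ᵥ cut Q v‖
  simp only [mul_pow, Real.sq_sqrt (h.diss _)] at h2
  have h3 := ward_cut (Q := Q) h S u
  have h4 := ward_cut (Q := Q) h S v
  have h5 : 0 ≤ ∑ y ∈ S, gam w y * ‖Gm A w y ⬝ᵥ cut Q v‖ ^ 2 :=
    sum_nonneg fun y _ => mul_nonneg (h.diss y) (by positivity)
  have := nsq_nonneg u
  calc _ ≤ (b * _) ^ 2 := by gcongr
    _ = b ^ 2 * _ := mul_pow _ _ _
    _ ≤ b ^ 2 * ((‖cmp (Gm A w) Q‖ * nsq u) * (‖cmp (Gm A w) Q‖ * nsq v)) := by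
        gcongr; exact h2.trans (by gcongr)
    _ = _ := by ring

/-- increment of the block monitor -/
noncomputable def inc5 (A : Matrix ι ι ℂ) (w : ι → ℂ) (Q : Finset ι) (vv : ι → ℕ → ℝ) (y : ι)
    (k : ℕ) : Matrix ι ι ℂ := Y5 A w Q y (tau (Gm A w y y) (w y) (vv y k))

/-- **M5**: `D` = dwell of the active ports on `Q`, `Mq` = norm of the block -/
theorem blk5_locA {B : Type} [Fintype B] [DecidableEq B] {e : B → ι} (he : Function.Injective e)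
    (Q' : Finset ι) (X : Matrix ι ι ℂ) {Act U : Finset ι} {N : ℕ} {vv : ι → ℕ → ℝ}
    {τ1 t2 b D Mq s dt Z T t : ℝ} (hN : 0 < N) (hdt : 0 ≤ dt) (hZ : 0 < Z) (hT : 0 < T)
    (hs : 0 ≤ s) (h : Adm A w) (hb : 0 ≤ b) (ht2 : 0 ≤ t2) (hD0 : 0 ≤ D)
    (hM : ‖cmp (Gm A w) Q‖ ≤ Mq)
    (hD : ∀ y ∈ Act ∩ U, ∑ x ∈ Q, ‖Gm A w x y‖ ^ 2 ≤ D)
    (hτ : ∀ y ∈ Act ∩ U, ∀ k < N, ‖tau (Gm A w y y) (w y) (vv y k)‖ ≤ τ1)
    (hτ2 : ∀ y ∈ Act ∩ U,
      avg N (fun k => ‖tau (Gm A w y y) (w y) (vv y k)‖ ^ 2) ≤ t2 * gam w y)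
    (hβ : ∀ y ∈ Act ∩ U, ‖avgV N fun k => tau (Gm A w y y) (w y) (vv y k)‖ ≤ b * gam w y)
    (h1 : Z * (s * (τ1 * D)) ≤ 1) (h2 : s * (b * Mq) ≤ 1 / (4 * T))
    (h3 : Z * (s ^ 2 * (t2 * D * Mq)) ≤ 1 / (4 * T)) :
    LocA Act N dt U (potM Z T t 0 ((s : ℂ) • blk X e Q'))
      fun ω => potM Z T (t + dt) 0 ((s : ℂ) • blk (accUp U X 0 (inc5 A w Q vv) ω) e Q') := by
  have hM0 : 0 ≤ Mq := (norm_nonneg _).trans hM
  refine M7.blk_locA hN he Q' X hdt hZ hT hs (by positivity) (fun y _ k => Y5_symm)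
    (fun y hy k hk => norm_Y5.trans (mul_le_mul (hτ y hy k hk) (hD y hy) (by positivity)
      ((norm_nonneg _).trans (hτ y hy k hk)))) ?_ (fun v => ?_) h1 h2 h3
  · refine le_trans (le_of_eq ?_) ((drift_Y5 (Q := Q) h _ hb hβ).trans (by gcongr))
    congr 1
    refine sum_congr rfl fun y _ => ?_
    ext x z
    simp only [avgV, inc5, Y5, Matrix.smul_apply, Matrix.sum_apply, smul_eq_mul, real_smul,
      neg_mul, sum_neg_distrib, ← sum_mul]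
    ring
  · have h4 : ∀ y ∈ Act ∩ U, avg N (fun k => nsq (inc5 A w Q vv y k *ᵥ v)) ≤
        t2 * D * (gam w y * ‖Gm A w y ⬝ᵥ cut Q v‖ ^ 2) := by
      intro y hy
      have e1 : ∀ k, nsq (inc5 A w Q vv y k *ᵥ v) =
          ‖Gm A w y ⬝ᵥ cut Q v‖ ^ 2 * (∑ x ∈ Q, ‖Gm A w x y‖ ^ 2) *
            ‖tau (Gm A w y y) (w y) (vv y k)‖ ^ 2 := fun k => by
        rw [inc5, (Y5_mulVec v).resolve_right (not_not.2 h), nsq_smul, nsq_col, norm_mul, norm_neg]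
        ring
      simp only [e1]
      rw [avg_mul]
      have := h.diss y
      calc _ ≤ ‖Gm A w y ⬝ᵥ cut Q v‖ ^ 2 * D * (t2 * gam w y) :=
            mul_le_mul (by gcongr; exact hD y hy) (hτ2 y hy)
              (le_trans (avg_const hN 0).ge (avg_mono fun _ _ => by positivity)) (by positivity)
        _ = _ := by ring
    refine (sum_le_sum h4).trans ?_
    rw [← mul_sum, mul_assoc (t2 * D)]
    have := nsq_nonneg v
    exact mul_le_mul_of_nonneg_left ((ward_cut h _ v).trans (by gcongr)) (by positivity)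

/-- increment of the entry `G a c` -/
noncomputable def inc1 (A : Matrix ι ι ℂ) (w : ι → ℂ) (vv : ι → ℕ → ℝ) (a c y : ι) (k : ℕ) : ℂ :=
  -(tau (Gm A w y y) (w y) (vv y k) * Gm A w a y * Gm A w y c)

theorem G_close (h : Adm A w) {vv : ι → ℕ → ℝ} {k : ℕ}
    (hne : 1 + ((vv y k : ℂ) - w y) * Gm A w y y ≠ 0) (a c : ι) :
    Gm A (cls1 w y (vv y k)) a c = Gm A w a c + inc1 A w vv a c y k := by
  rw [h.close_G hne, inc1]; ring

theorem sum_gam_le (h : Adm A w) (S : Finset ι) (a : ι) :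
    ∑ y ∈ S, gam w y * ‖Gm A w a y‖ ^ 2 ≤ (Gm A w a a).im :=
  (sum_le_sum_of_subset_of_nonneg (subset_univ S) fun b _ _ =>
    mul_nonneg (h.diss b) (by positivity)).trans (h.ward_diag a).le

theorem drift1 (h : Adm A w) (S : Finset ι) {β : ι → ℂ} {b Ci : ℝ} (hb : 0 ≤ b)
    (hβ : ∀ y ∈ S, ‖β y‖ ≤ b * gam w y) {a c : ι} (ha : (Gm A w a a).im ≤ Ci)
    (hc : (Gm A w c c).im ≤ Ci) : ‖∑ y ∈ S, β y * Gm A w a y * Gm A w y c‖ ≤ b * Ci := by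
  have h1 := (sum_gam_le h S a).trans ha
  have h2 := (sum_gam_le h S c).trans hc
  have h3 : ‖∑ y ∈ S, β y * Gm A w a y * Gm A w y c‖ ≤
      b / 2 * (∑ y ∈ S, gam w y * ‖Gm A w a y‖ ^ 2 + ∑ y ∈ S, gam w y * ‖Gm A w c y‖ ^ 2) := by
    rw [← sum_add_distrib, mul_sum]
    refine (norm_sum_le _ _).trans (sum_le_sum fun y hy => ?_)
    rw [norm_mul, norm_mul, h.G_sym y c]
    have := h.diss y
    calc _ ≤ b * gam w y * ‖Gm A w a y‖ * ‖Gm A w c y‖ := by gcongr; exact hβ y hy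
      _ ≤ _ := by nlinarith [mul_nonneg (mul_nonneg hb this) (sq_nonneg (‖Gm A w a y‖ - ‖Gm A w c y‖))]
  nlinarith

/-- size split for the quadratic variation of an entry: `ν` bounds `∑ γ |G_{cy}|⁴` -/
theorem qv1 (h : Adm A w) (S : Finset ι) {a c : ι} {Ci Cs ν ε : ℝ} (hε : 0 < ε)
    (ha : (Gm A w a a).im ≤ Ci) (hs : ∀ y ∈ S, ‖Gm A w a y‖ ≤ Cs)
    (hν : ∑ y ∈ S, gam w y * ‖Gm A w c y‖ ^ 4 ≤ ν) :
    ∑ y ∈ S, gam w y * (‖Gm A w a y‖ ^ 2 * ‖Gm A w c y‖ ^ 2) ≤ ε * Ci + ν / ε * Cs ^ 2 := by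
  have h1 := (sum_gam_le h S a).trans ha
  have h2 : ∑ y ∈ S, gam w y * (‖Gm A w a y‖ ^ 2 * ‖Gm A w c y‖ ^ 2) ≤
      ε * ∑ y ∈ S, gam w y * ‖Gm A w a y‖ ^ 2 +
        (∑ y ∈ S, gam w y * ‖Gm A w c y‖ ^ 4) / ε * Cs ^ 2 := by
    rw [mul_sum, sum_div, sum_mul, ← sum_add_distrib]
    refine sum_le_sum fun y hy => ?_
    have hγ := h.diss y
    have h3 : ‖Gm A w a y‖ ^ 2 ≤ Cs ^ 2 := by gcongr; exact hs y hy
    by_cases h4 : ‖Gm A w c y‖ ^ 2 ≤ ε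
    · have : 0 ≤ gam w y * ‖Gm A w c y‖ ^ 4 / ε * Cs ^ 2 := by positivity
      have : gam w y * (‖Gm A w a y‖ ^ 2 * ‖Gm A w c y‖ ^ 2) ≤
          gam w y * (‖Gm A w a y‖ ^ 2 * ε) := by gcongr
      linarith
    · push Not at h4
      have : 0 ≤ ε * (gam w y * ‖Gm A w a y‖ ^ 2) := by positivity
      have h5 : ‖Gm A w c y‖ ^ 2 ≤ ‖Gm A w c y‖ ^ 4 / ε := by
        rw [le_div_iff₀ hε]; nlinarith [sq_nonneg ‖Gm A w c y‖]
      have : gam w y * (‖Gm A w a y‖ ^ 2 * ‖Gm A w c y‖ ^ 2) ≤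
          gam w y * (Cs ^ 2 * (‖Gm A w c y‖ ^ 4 / ε)) := by gcongr
      calc _ ≤ _ := this
        _ = gam w y * ‖Gm A w c y‖ ^ 4 / ε * Cs ^ 2 := by ring
        _ ≤ _ := by linarith
  refine h2.trans ?_
  gcongr

/-- **M1**: monitor of one entry; `j` = size of the products, `q` = quadratic variation -/
theorem pair_locA {Act U : Finset ι} {N : ℕ} {vv : ι → ℕ → ℝ} {a c : ι} (z : ℂ)
    {τ1 t2 b Ci j q s dt Z T t : ℝ} (hN : 0 < N) (hdt : 0 ≤ dt) (hZ : 0 < Z) (hT : 0 < T)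
    (hs : 0 ≤ s) (h : Adm A w) (hb : 0 ≤ b) (ht2 : 0 ≤ t2)
    (ha : (Gm A w a a).im ≤ Ci) (hc : (Gm A w c c).im ≤ Ci)
    (hj : ∀ y ∈ Act ∩ U, ‖Gm A w a y‖ * ‖Gm A w c y‖ ≤ j)
    (hq : ∑ y ∈ Act ∩ U, gam w y * (‖Gm A w a y‖ ^ 2 * ‖Gm A w c y‖ ^ 2) ≤ q)
    (hτ : ∀ y ∈ Act ∩ U, ∀ k < N, ‖tau (Gm A w y y) (w y) (vv y k)‖ ≤ τ1)
    (hτ2 : ∀ y ∈ Act ∩ U,
      avg N (fun k => ‖tau (Gm A w y y) (w y) (vv y k)‖ ^ 2) ≤ t2 * gam w y)
    (hβ : ∀ y ∈ Act ∩ U, ‖avgV N fun k => tau (Gm A w y y) (w y) (vv y k)‖ ≤ b * gam w y)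
    (h1 : Z * (s * (τ1 * j)) ≤ 1) (h2 : s * (b * Ci) ≤ 1 / (4 * T))
    (h3 : Z * (s ^ 2 * (t2 * q)) ≤ 1 / (4 * T)) :
    LocA Act N dt U (potC Z T t 0 (s * z))
      fun ω => potC Z T (t + dt) 0 (s * accUp U z 0 (inc1 A w vv a c) ω) := by
  have hns : ‖(s : ℂ)‖ = s := by rw [Complex.norm_real, Real.norm_of_nonneg hs]
  have hn : ∀ y k, ‖(s : ℂ) * inc1 A w vv a c y k‖ =
      s * (‖tau (Gm A w y y) (w y) (vv y k)‖ * (‖Gm A w a y‖ * ‖Gm A w c y‖)) := fun y k => by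
    rw [norm_mul, hns, inc1, norm_neg, norm_mul, norm_mul, h.G_sym y c, mul_assoc]
  have := potC_locA (A := Act) (U := U) hN (dt := dt) (Z := Z) (T := T) (t := t) (R := 0) (R' := 0)
    (z := s * z) (J := fun y k => s * inc1 A w vv a c y k) hdt hZ hT
    (fun y hy k hk => le_trans (by
      rw [hn]
      have := (norm_nonneg _).trans (hτ y hy k hk)
      gcongr
      exacts [hτ y hy k hk, hj y hy]) h1)
    (by
      have e1 : ∑ y ∈ Act ∩ U, avgV N (fun k => s * inc1 A w vv a c y k) = -s * ∑ y ∈ Act ∩ U,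
          (avgV N fun k => tau (Gm A w y y) (w y) (vv y k)) * Gm A w a y * Gm A w y c := by
        rw [mul_sum]
        refine sum_congr rfl fun y _ => ?_
        simp only [avgV, inc1, real_smul, mul_neg, sum_neg_distrib, ← mul_sum, ← sum_mul]
        ring
      rw [e1, norm_mul, norm_neg, hns, sub_self, zero_add, div_eq_mul_one_div dt]
      gcongr
      exact le_trans (by gcongr; exact drift1 h _ hb hβ ha hc) h2)
    (by
      refine le_trans ?_ h3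
      gcongr
      refine le_trans ?_ (mul_le_mul_of_nonneg_left (mul_le_mul_of_nonneg_left hq ht2) (sq_nonneg s))
      rw [mul_sum, mul_sum]
      refine sum_le_sum fun y hy => ?_
      have e1 : ∀ k, ‖(s : ℂ) * inc1 A w vv a c y k‖ ^ 2 =
          s ^ 2 * (‖Gm A w a y‖ ^ 2 * ‖Gm A w c y‖ ^ 2) * ‖tau (Gm A w y y) (w y) (vv y k)‖ ^ 2 :=
        fun k => by rw [hn]; ring
      simp only [e1]
      rw [avg_mul]
      calc _ ≤ s ^ 2 * (‖Gm A w a y‖ ^ 2 * ‖Gm A w c y‖ ^ 2) * (t2 * gam w y) := by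
            gcongr; exact hτ2 y hy
        _ = _ := by ring)
  convert this using 3 with ω
  rcases ω with _ | ⟨y, k⟩
  · simp [accUp]
  · by_cases hy : y ∈ U <;> simp [accUp, hy, mul_add]

end Crest.Agent.N334.AC.M5
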