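import Crest.Agent.N334.AC.M7.Y
import Crest.Agent.N334.AC.CT

/-! # S0520 (helper74): the monitor M7 (Schur square of the Green matrix on ordinary ports) -/

set_option autoImplicit false

open Finset Matrix Complex
open scoped Matrix.Norms.L2Operator

namespace Crest.Agent.N334.AC.M7

section Blk

variable {ι B : Type} [Fintype ι] [DecidableEq ι] [Fintype B] [DecidableEq B]

/-- embedding matrix -/
def emb (e : B → ι) (Q : Finset ι) : Matrix ι B ℂ := fun a u => if e u = a ∧ a ∈ Q then 1 else 0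

theorem bd_emb {e : B → ι} (he : Function.Injective e) (Q : Finset ι) : Bd (emb e Q) 1 := by
  have h1 := bd_schur (emb e Q) (R := 1) (C := 1) zero_le_one zero_le_one (fun a => ?_) fun u => ?_
  · simpa using h1
  · by_cases ha : ∃ u, e u = a
    · obtain ⟨u, rfl⟩ := ha
      by_cases hq : e u ∈ Q <;> simp [emb, he.eq_iff, apply_ite, hq]
    · push Not at ha
      simp [emb, ha]
  · rw [sum_eq_single (e u)]
    · by_cases hq : e u ∈ Q <;> simp [emb, hq]
    · intro a _ ha; simp [emb, ha.symm]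
    · simp

omit [Fintype B] [DecidableEq B] in
theorem blk_eq (X : Matrix ι ι ℂ) (e : B → ι) (Q : Finset ι) :
    blk X e Q = (emb e Q)ᵀ * X * emb e Q := by
  ext u v
  simp only [Matrix.mul_apply, Matrix.transpose_apply, emb, ite_mul, one_mul, zero_mul, mul_ite,
    mul_one, mul_zero, ite_and, sum_ite_eq, mem_univ, if_true]
  by_cases h1 : e u ∈ Q <;> by_cases h2 : e v ∈ Q <;> simp [blk, h1, h2]

theorem norm_blk_le (X : Matrix ι ι ℂ) {e : B → ι} (he : Function.Injective e) (Q : Finset ι) :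
    ‖blk X e Q‖ ≤ ‖X‖ := (norm_blk X he Q).le.trans (norm_cmp_le _ _)

/-- generic block monitor for symmetric increments -/
theorem blk_locA {Λ : Type} [Fintype Λ] [DecidableEq Λ] {A U : Finset Λ} {N : ℕ} (hN : 0 < N)
    {dt Z T t s j D q : ℝ} {e : B → ι} (he : Function.Injective e) (Q : Finset ι)
    (X : Matrix ι ι ℂ) {Y : Λ → ℕ → Matrix ι ι ℂ} (hdt : 0 ≤ dt) (hZ : 0 < Z) (hT : 0 < T)
    (hs : 0 ≤ s) (hq : 0 ≤ q) (hY : ∀ y ∈ A ∩ U, ∀ k, (Y y k)ᵀ = Y y k)
    (hj : ∀ y ∈ A ∩ U, ∀ k < N, ‖Y y k‖ ≤ j) (hD : ‖∑ y ∈ A ∩ U, avgV N (Y y)‖ ≤ D)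
    (hQ : ∀ v, ∑ y ∈ A ∩ U, avg N (fun k => nsq (Y y k *ᵥ v)) ≤ q * nsq v)
    (h1 : Z * (s * j) ≤ 1) (h2 : s * D ≤ 1 / (4 * T)) (h3 : Z * (s ^ 2 * q) ≤ 1 / (4 * T)) :
    LocA A N dt U (potM Z T t 0 ((s : ℂ) • blk X e Q))
      fun ω => potM Z T (t + dt) 0 ((s : ℂ) • blk (accUp U X 0 Y ω) e Q) := by
  have hns : ‖(s : ℂ)‖ = s := by rw [Complex.norm_real, Real.norm_of_nonneg hs]
  have key : ∀ v : B → ℂ, Z * ∑ y ∈ A ∩ U,
      avg N (fun k => nsq (((s : ℂ) • blk (Y y k) e Q) *ᵥ v)) ≤ 1 / (4 * T) * nsq v := by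
    intro v
    have h4 : ∑ y ∈ A ∩ U, avg N (fun k => nsq (((s : ℂ) • blk (Y y k) e Q) *ᵥ v)) ≤
        s ^ 2 * ∑ y ∈ A ∩ U, avg N (fun k => nsq (Y y k *ᵥ emb e Q *ᵥ v)) := by
      rw [mul_sum]
      refine sum_le_sum fun y _ => ?_
      rw [← avg_mul]
      refine avg_mono fun k _ => ?_
      rw [smul_mulVec, nsq_smul, hns, blk_eq, ← mulVec_mulVec, ← mulVec_mulVec]
      gcongr
      simpa using (bd_emb he Q).transpose (Y y k *ᵥ emb e Q *ᵥ v)
    have h5 : nsq (emb e Q *ᵥ v) ≤ nsq v := by simpa using bd_emb he Q v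
    have h6 := nsq_nonneg v
    calc _ ≤ Z * (s ^ 2 * (q * nsq v)) := by
          gcongr
          exact h4.trans (by gcongr; exact (hQ _).trans (by gcongr))
      _ = Z * (s ^ 2 * q) * nsq v := by ring
      _ ≤ _ := by gcongr
  have := potM_locA (A := A) (U := U) hN (dt := dt) (Z := Z) (T := T) (t := t) (R := 0) (R' := 0)
    (X := (s : ℂ) • blk X e Q) (J := fun y k => (s : ℂ) • blk (Y y k) e Q) hdt hZ hT
    (fun y hy k hk => le_trans (by
      rw [norm_smul, hns]; gcongr; exact (norm_blk_le _ he Q).trans (hj y hy k hk)) h1)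
    (by
      have e1 : ∑ y ∈ A ∩ U, avgV N (fun k => (s : ℂ) • blk (Y y k) e Q) =
          (s : ℂ) • blk (∑ y ∈ A ∩ U, avgV N (Y y)) e Q := by
        simp only [blk_eq, avgV, Matrix.mul_sum, Matrix.sum_mul, smul_sum, Matrix.mul_smul,
          Matrix.smul_mul]
        exact sum_congr rfl fun y _ => sum_congr rfl fun k _ => smul_comm _ _ _
      rw [e1, norm_smul, hns, sub_self, zero_add, div_eq_mul_one_div dt]
      gcongr
      exact le_trans (by gcongr; exact (norm_blk_le _ he Q).trans hD) h2)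
    key fun v => by
      have h4 := key (star v)
      rw [nsq_star] at h4
      refine le_trans (le_of_eq ?_) h4
      congr 1
      refine sum_congr rfl fun y hy => ?_
      congr 1
      funext k
      have e2 : ((s : ℂ) • blk (Y y k) e Q)ᵀ = (s : ℂ) • blk (Y y k) e Q := by
        simp only [blk_eq, transpose_smul, transpose_mul, transpose_transpose, hY y hy k,
          Matrix.mul_assoc]
      rw [← nsq_star, star_mulVec, conjTranspose_conjTranspose, ← mulVec_transpose, e2]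
  convert this using 3 with ω
  rcases ω with _ | ⟨y, k⟩
  · simp [accUp]
  · by_cases hy : y ∈ U <;> simp [accUp, hy, blk_eq, Matrix.mul_add, Matrix.add_mul]

end Blk

variable {d M : ℕ} [NeZero M]

/-- record of the increments, indexed by the closed site -/
abbrev Rec7 (d M : ℕ) := Tor d M → Matrix (Tor d M) (Tor d M) ℂ

/-- increment at the closing of `y` with digit `k` -/
noncomputable def inc (A : Matrix (Tor d M) (Tor d M) ℂ) (w : Tor d M → ℂ) (O : Finset (Tor d M))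
    (N : ℕ) (vv : Tor d M → ℕ → ℝ) (y : Tor d M) (k : ℕ) : Matrix (Tor d M) (Tor d M) ℂ :=
  Y7 A w O y (tau (Gm A w y y) (w y) (vv y k)) (avgV N fun i => tau (Gm A w y y) (w y) (vv y i) ^ 2)

/-- update of the record -/
noncomputable def step7 (A : Matrix (Tor d M) (Tor d M) ℂ) (w : Tor d M → ℂ)
    (O : Finset (Tor d M)) (N : ℕ) (vv : Tor d M → ℕ → ℝ) (Ys : Rec7 d M) :
    Option (Tor d M × ℕ) → Rec7 d M
  | none => Ys
  | some (y, k) => fun z => Ys z + if z = y then inc A w O N vv y k else 0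

/-- the monitored matrix -/
noncomputable def mon7 {B : Type} (e : B → Tor d M) (s : ℝ) (L : ℕ) (Ys : Rec7 d M) (p : Tor d M) :
    Matrix B B ℂ := (s : ℂ) • blk (∑ y ∈ tball p L, Ys y) e univ

/-- bookkeeping of a closing phase started at `(w0, O0)` -/
structure Track7 (A : Matrix (Tor d M) (Tor d M) ℂ) (O0 : Finset (Tor d M)) (w0 w : Tor d M → ℂ)
    (O : Finset (Tor d M)) (Ys : Rec7 d M) (a c θ : ℝ) : Prop where
  zero : ∀ y ∈ O, Ys y = 0
  loc : ∀ y x z, ‖Ys y x z‖ ≤ c * (Real.exp (-θ * tdist x y) * Real.exp (-θ * tdist z y))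
  sub : O ⊆ O0
  ext : ∀ u, Supp u O → ∃ U, Supp U O0 ∧ (∀ x ∈ O, U x = u x) ∧
    a * nsq U - (U ⬝ᵥ (RR A w0 + ∑ y, Ys y) *ᵥ U).re ≤ a * nsq u - (u ⬝ᵥ RR A w *ᵥ u).re

variable {A : Matrix (Tor d M) (Tor d M) ℂ} {O0 O : Finset (Tor d M)} {w0 w : Tor d M → ℂ}
  {Ys : Rec7 d M} {a c θ : ℝ}

theorem Track7.init (A : Matrix (Tor d M) (Tor d M) ℂ) (O : Finset (Tor d M)) (w : Tor d M → ℂ)
    (a : ℝ) (hc : 0 ≤ c) (θ : ℝ) : Track7 A O w w O 0 a c θ :=
  ⟨fun _ _ => rfl, fun y x z => by simp; positivity, subset_rfl,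
    fun u hu => ⟨u, hu, fun _ _ => rfl, by simp⟩⟩

theorem Track7.shrink (h : Track7 A O0 w0 w O Ys a c θ) {O' : Finset (Tor d M)} (hO : O' ⊆ O) :
    Track7 A O0 w0 w O' Ys a c θ :=
  ⟨fun y hy => h.zero y (hO hy), h.loc, hO.trans h.sub, fun u hu => by
    obtain ⟨U, h1, h2, h3⟩ := h.ext u fun x hx => hu x fun h' => hx (hO h')
    exact ⟨U, h1, fun x hx => h2 x (hO hx), h3⟩⟩

theorem Track7.close (h : Track7 A O0 w0 w O Ys a c θ) (hA : Adm A w) {y : Tor d M} (hy : y ∈ O)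
    {N k : ℕ} {vv : Tor d M → ℕ → ℝ} {C A1 : ℝ} (ha : 0 < a)
    (hne : 1 + ((vv y k : ℂ) - w y) * Gm A w y y ≠ 0) (hC : ‖Gm A w y y‖ ≤ C)
    (he : ‖avgV N fun i => tau (Gm A w y y) (w y) (vv y i) ^ 2‖ * (a + C ^ 2) ≤ 1)
    (he1 : ‖avgV N fun i => tau (Gm A w y y) (w y) (vv y i) ^ 2‖ ≤ 1)
    (hτ : ‖tau (Gm A w y y) (w y) (vv y k)‖ ≤ 1) (hθ : 0 ≤ θ) (hA1 : 1 ≤ A1)
    (hdec : ∀ x ∈ O, ∀ z ∈ O, ‖Gm A w x z‖ ≤ A1 * Real.exp (-θ * tdist x z))
    (hc : 4 * A1 ^ 4 ≤ c) :
    Track7 A O0 w0 (cls1 w y (vv y k)) (O.erase y) (step7 A w O N vv Ys (some (y, k))) a c θ := by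
  have hsum : ∑ z, step7 A w O N vv Ys (some (y, k)) z = ∑ z, Ys z + inc A w O N vv y k := by
    simp [step7, sum_add_distrib]
  refine ⟨fun z hz => by
    simp [step7, ne_of_mem_erase hz, h.zero z (mem_of_mem_erase hz)], fun z x x' => ?_,
    (erase_subset y O).trans h.sub, fun u hu => ?_⟩
  · by_cases hz : z = y
    · subst hz
      simp only [step7, if_true, h.zero z hy, zero_add, inc]
      have hc0 : 0 ≤ c := le_trans (by positivity) hc
      by_cases hx : x ∈ O.erase z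
      · by_cases hx' : x' ∈ O.erase z
        · rw [Y7_apply, gc_of_mem hx, gc_of_mem hx']
          have le1 : ∀ p q : Tor d M, Real.exp (-θ * tdist p q) ≤ 1 := fun p q =>
            Real.exp_le_one_iff.2 (by have : (0 : ℝ) ≤ tdist p q := by positivity
                                      nlinarith)
          have h1 := hdec x (mem_of_mem_erase hx) z hy
          have h2 := hdec x' (mem_of_mem_erase hx') z hy
          have h3 : ‖Gm A w x x'‖ ≤ A1 := (hdec x (mem_of_mem_erase hx) x'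
            (mem_of_mem_erase hx')).trans (mul_le_of_le_one_right (by linarith) (le1 _ _))
          have h1' := h1.trans (mul_le_of_le_one_right (by linarith) (le1 _ _))
          have h2' := h2.trans (mul_le_of_le_one_right (by linarith) (le1 _ _))
          have h4 : ‖tau (Gm A w z z) (w z) (vv z k) ^ 2 -
              avgV N fun i => tau (Gm A w z z) (w z) (vv z i) ^ 2‖ ≤ 2 := by
            refine (norm_sub_le _ _).trans ?_
            have : ‖tau (Gm A w z z) (w z) (vv z k) ^ 2‖ ≤ 1 := by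
              rw [norm_pow]; exact pow_le_one₀ (norm_nonneg _) hτ
            linarith
          refine (norm_add_le _ _).trans ?_
          simp only [norm_mul, norm_neg, Complex.norm_two, sq (Gm A w _ _)]
          set p := Real.exp (-θ * tdist x z)
          set q := Real.exp (-θ * tdist x' z)
          have hp : 0 ≤ p := Real.exp_nonneg _
          have hq : 0 ≤ q := Real.exp_nonneg _
          calc _ ≤ 2 * 1 * (A1 * p * (A1 * A1) * (A1 * q)) +
                2 * (A1 * (A1 * p) * (A1 * (A1 * q))) := by gcongr; nlinarith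
            _ = 4 * A1 ^ 4 * (p * q) := by ring
            _ ≤ _ := by gcongr
        · simp [Y7_apply, gc_of_not hx']; positivity
      · simp [Y7_apply, gc_of_not hx]; positivity
    · simpa [step7, hz] using h.loc z x x'
  · obtain ⟨z, hz⟩ := schur_step hA ha hC he (u := u) (hu y (notMem_erase y O))
    obtain ⟨U, h1, h2, h3⟩ := h.ext (Function.update u y z) fun x hx => by
      rw [Function.update_of_ne (by rintro rfl; exact hx hy)]
      exact hu x fun h' => hx (mem_of_mem_erase h')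
    have h4 : ∀ x ∈ O.erase y, U x = u x := fun x hx => by
      rw [h2 x (mem_of_mem_erase hx), Function.update_of_ne (ne_of_mem_erase hx)]
    refine ⟨U, h1, h4, ?_⟩
    rw [hsum, ← add_assoc, add_mulVec, dotProduct_add, add_re, inc, Y7_form_congr h4,
      form_close hA hne (avgV N fun i => tau (Gm A w y y) (w y) (vv y i) ^ 2) hu, add_re, add_re]
    linarith

theorem Track7.norm_le (h : Track7 A O0 w0 w O Ys a c θ) (hA : Adm A w) {b0 b1 : ℝ}
    (h0 : ‖cmp (RR A w0) O0‖ ≤ b0) (h1 : ‖∑ y, Ys y‖ ≤ b1) (hab : b0 + b1 ≤ a) :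
    ‖cmp (RR A w) O‖ ≤ b0 + b1 := by
  have hb0 := (norm_nonneg _).trans h0
  have hb1 := (norm_nonneg _).trans h1
  refine norm_cmp_le_of_form (by positivity) fun x y hx hy =>
    form_le_of_re (RR_symm hA) (by positivity) (fun u hu => ?_) hx hy
  obtain ⟨U, h2, h3, h4⟩ := h.ext u hu
  have hn := nsq_nonneg U
  have form : ∀ X : Matrix (Tor d M) (Tor d M) ℂ, (U ⬝ᵥ X *ᵥ U).re ≤ ‖X‖ * nsq U := fun X =>
    (re_le_norm _).trans (abs_le_of_sq_le_sq' ((norm_form_sq_le X U U).trans (le_of_eq (by ring)))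
      (by positivity)).2
  have h5 := form (cmp (RR A w0) O0)
  rw [form_cmp _ h2 h2] at h5
  have h6 := form (∑ y, Ys y)
  have h7 : nsq u ≤ nsq U := sum_le_sum fun x _ => by
    by_cases hx : x ∈ O
    · rw [h3 x hx]
    · rw [hu x hx, norm_zero]; simp
  rw [add_mulVec, dotProduct_add, add_re] at h4
  nlinarith [mul_le_mul_of_nonneg_right h0 hn, mul_le_mul_of_nonneg_right h1 hn,
    mul_le_mul_of_nonneg_left h7 (sub_nonneg.2 hab)]

theorem glue7 {B : Type} [Fintype B] [DecidableEq B] {e : Tor d M → B → Tor d M} {s b : ℝ} {L : ℕ}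
    (hloc : ∀ y x z, ‖Ys y x z‖ ≤ c * (Real.exp (-θ * tdist x y) * Real.exp (-θ * tdist z y)))
    (hθ : 0 < θ) (hθ1 : θ ≤ 1) (hs : 0 < s) (he : ∀ p, Function.Injective (e p))
    (hcov : ∀ p, tball p (2 * L) ⊆ univ.image (e p)) (hb : ∀ p, ‖mon7 (e p) s L Ys p‖ ≤ b) :
    ‖∑ y, Ys y‖ ≤ 2 ^ d * (b / s) + c * Real.exp (-θ * L / 2) * (6 * d / θ) ^ (2 * d) := by
  have hV : 0 < vol d M L := lt_of_lt_of_le one_pos (one_le_vol L)
  have hc : 0 ≤ c := by simpa [tdist_self] using (norm_nonneg _).trans (hloc 0 0 0)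
  have hb0 : 0 ≤ b := (norm_nonneg _).trans (hb 0)
  set P : Matrix (Tor d M) (Tor d M) ℂ :=
    ∑ p, cmp (∑ y ∈ tball p L, Ys y) (tball p (2 * L)) with hP
  have h1 : ‖P‖ ≤ vol d M (2 * L) * (b / s) := by
    refine norm_sum_local_le univ _ (fun p => tball p (2 * L)) (by positivity)
      (fun p _ => ⟨?_, ?_⟩) fun x => (card_filter_mem_tball x _).le
    · ext x z; simp only [cmp]; split_ifs <;> rfl
    · have h2 := hb p
      rw [mon7, norm_smul, Complex.norm_real, Real.norm_of_nonneg hs.le, norm_blk _ (he p),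
        univ_inter] at h2
      rw [le_div_iff₀' hs]
      exact le_trans (by gcongr; exact norm_cmp_mono _ (hcov p)) h2
  have h2 : ‖((vol d M L : ℝ) : ℂ) • ∑ y, Ys y - P‖ ≤
      vol d M L * (c * Real.exp (-θ * L / 2) * (6 * d / θ) ^ (2 * d)) := by
    have hs1 : ∀ p : Tor d M, ∑ x, Real.exp (-(θ / 2) * tdist x p) ≤ (6 * d / θ) ^ d := fun p =>
      (sum_exp_le (θ := θ / 2) (by positivity) (by linarith) p).trans
        (le_of_eq (by congr 1; field_simp; ring))
    refine (bd_iff_norm (by positivity)).1 (bd_of_le (k := fun x z => vol d M L *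
      (c * Real.exp (-θ * L / 2) *
        ∑ y, Real.exp (-(θ / 2) * tdist x y) * Real.exp (-(θ / 2) * tdist z y)))
      (by positivity) (fun x z => ?_) (fun x z => by simp only [mul_comm]) fun x => ?_)
    · have e1 : (((vol d M L : ℝ) : ℂ) • ∑ y, Ys y - P) x z = ∑ y, ∑ p ∈ tball y L,
          if x ∈ tball p (2 * L) ∧ z ∈ tball p (2 * L) then 0 else Ys y x z := by
        have e2 : P x z = ∑ y, ∑ p ∈ tball y L,
            if x ∈ tball p (2 * L) ∧ z ∈ tball p (2 * L) then Ys y x z else 0 := by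
          rw [hP, Matrix.sum_apply, sum_comm' (s' := fun p => tball p L) (t' := univ)
            (by intro y p; simp [mem_tball, tdist_comm])]
          refine sum_congr rfl fun p _ => ?_
          simp only [cmp, Matrix.sum_apply]
          split_ifs <;> simp
        rw [Matrix.sub_apply, Matrix.smul_apply, Matrix.sum_apply, e2, smul_eq_mul, mul_sum,
          ← sum_sub_distrib]
        refine sum_congr rfl fun y _ => ?_
        rw [← card_tball y L, ofReal_natCast, ← nsmul_eq_mul, ← sum_const, ← sum_sub_distrib]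
        exact sum_congr rfl fun p _ => by split_ifs <;> simp
      rw [e1, mul_sum, mul_sum]
      refine (norm_sum_le _ _).trans (sum_le_sum fun y _ => ?_)
      rw [← card_tball y L, ← nsmul_eq_mul, ← sum_const]
      refine (norm_sum_le _ _).trans (sum_le_sum fun p hp => ?_)
      split_ifs with hxz
      · rw [norm_zero]; positivity
      refine (hloc y x z).trans ?_
      rw [mul_assoc, ← Real.exp_add, ← Real.exp_add, ← Real.exp_add]
      refine mul_le_mul_of_nonneg_left (Real.exp_le_exp.2 ?_) hc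
      have h3 : L ≤ tdist x y + tdist z y := by
        rw [mem_tball] at hp
        rw [mem_tball, mem_tball] at hxz
        have := tdist_triangle x y p
        have := tdist_triangle z y p
        rw [tdist_comm] at hp
        omega
      have h4 : (L : ℝ) ≤ tdist x y + tdist z y := by exact_mod_cast h3
      nlinarith
    · rw [← mul_sum, ← mul_sum, sum_comm, two_mul d, pow_add]
      gcongr
      simp only [← mul_sum]
      refine (sum_le_sum fun y _ => mul_le_mul_of_nonneg_left (hs1 y) (by positivity)).trans ?_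
      rw [← sum_mul]
      gcongr
      simpa only [tdist_comm x] using hs1 x
  have h3 : vol d M L * ‖∑ y, Ys y‖ ≤ vol d M L * (2 ^ d * (b / s) +
      c * Real.exp (-θ * L / 2) * (6 * d / θ) ^ (2 * d)) := by
    have h4 := norm_sub_norm_le (((vol d M L : ℝ) : ℂ) • ∑ y, Ys y) P
    rw [norm_smul, Complex.norm_real, Real.norm_of_nonneg hV.le] at h4
    have h5 := vol_mul_le (d := d) (M := M) 2 L (by norm_num)
    have h6 : vol d M (2 * L) * (b / s) ≤ 2 ^ d * vol d M L * (b / s) := by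
      gcongr; exact_mod_cast h5
    nlinarith
  exact le_of_mul_le_mul_left h3 hV

theorem mon7_zero {B : Type} (e : B → Tor d M) (s : ℝ) (L : ℕ) (p : Tor d M) :
    mon7 e s L (0 : Rec7 d M) p = 0 := by
  ext u v; simp [mon7, blk]

theorem mon7_step {B : Type} (e : B → Tor d M) (s : ℝ) (L N : ℕ) (vv : Tor d M → ℕ → ℝ)
    (p : Tor d M) (ω : Option (Tor d M × ℕ)) : mon7 e s L (step7 A w O N vv Ys ω) p =
      (s : ℂ) • blk (accUp (tball p L) (∑ y ∈ tball p L, Ys y) 0 (inc A w O N vv) ω) e univ := by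
  rcases ω with _ | ⟨y, k⟩
  · simp [mon7, step7, accUp]
  · simp [mon7, step7, accUp, sum_add_distrib]

/-- quadratic variation constant -/
noncomputable def q7 (g Ci ν τ1 ε : ℝ) : ℝ :=
  (8 * τ1 ^ 2 * (ε / g ^ 2 + ν / ε * (Ci / g)) + 8 * τ1 ^ 4 * ν * (Ci / g)) * (Ci / g)

theorem mon7_locA {B : Type} [Fintype B] [DecidableEq B] {e : B → Tor d M}
    (he : Function.Injective e) {Act : Finset (Tor d M)} {N L : ℕ} {p : Tor d M}
    {vv : Tor d M → ℕ → ℝ} {g Ci Cs ν τ1 ε b s dt Z T t : ℝ} (hN : 0 < N) (hdt : 0 ≤ dt)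
    (hZ : 0 < Z) (hT : 0 < T) (hs : 0 ≤ s) (h : Sz A w O g Ci) (hAct : Act ⊆ O) (hCs : 0 ≤ Cs)
    (hε : 0 < ε) (hb : 0 ≤ b) (hν0 : 0 ≤ ν)
    (hsup : ∀ y ∈ Act ∩ tball p L, ∀ x ∈ O.erase y, ‖Gm A w x y‖ ≤ Cs)
    (hν : ∀ y ∈ Act ∩ tball p L, ∑ x ∈ O.erase y, ‖Gm A w x y‖ ^ 4 ≤ ν)
    (hτ : ∀ y ∈ Act ∩ tball p L, ∀ k < N, ‖tau (Gm A w y y) (w y) (vv y k)‖ ≤ τ1)
    (hβ : ∀ y ∈ Act ∩ tball p L,
      ‖avgV N fun k => tau (Gm A w y y) (w y) (vv y k)‖ ≤ b * gam w y)
    (h1 : Z * (s * (2 * τ1 * Cs ^ 2 / g + 2 * τ1 ^ 2 * ν)) ≤ 1)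
    (h2 : s * (2 * b * Ci / g) ≤ 1 / (4 * T)) (h3 : Z * (s ^ 2 * q7 g Ci ν τ1 ε) ≤ 1 / (4 * T)) :
    LocA Act N dt (tball p L) (potM Z T t 0 (mon7 e s L Ys p))
      fun ω => potM Z T (t + dt) 0 (mon7 e s L (step7 A w O N vv Ys ω) p) := by
  have hg := h.g0
  have hC := h.C0
  have hS : Act ∩ tball p L ⊆ O := inter_subset_left.trans hAct
  have he2 : ∀ y ∈ Act ∩ tball p L,
      ‖avgV N fun i => tau (Gm A w y y) (w y) (vv y i) ^ 2‖ ≤ τ1 ^ 2 := fun y hy =>
    (norm_avgV_le N _).trans ((avg_mono fun k hk => by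
      rw [norm_pow]; gcongr; exact hτ y hy k hk).trans (avg_const hN _).le)
  simp only [mon7_step]
  refine blk_locA hN he univ _ hdt hZ hT hs (by unfold q7; positivity)
    (fun y _ k => Y7_symm h.adm)
    (fun y hy k hk => h.norm_Y7 hCs (hsup y hy) (hν y hy) (hτ y hy k hk) (he2 y hy)) ?_
    (fun v => ?_) h1 h2 h3
  · refine le_trans (le_of_eq ?_) (h.drift hS hb hβ)
    congr 1
    refine sum_congr rfl fun y _ => ?_
    have hN' : (N : ℂ) ≠ 0 := by exact_mod_cast hN.ne'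
    ext x z
    simp only [avgV, inc, Matrix.smul_apply, Matrix.sum_apply, Y7_apply, DGD_apply, sum_add_distrib,
      ← sum_mul, ← mul_sum, sum_sub_distrib, sum_const, card_range, smul_eq_mul, real_smul,
      nsmul_eq_mul, ofReal_inv, ofReal_natCast]
    field_simp
    ring
  · refine (sum_le_sum fun y hy => (avg_mono fun k hk => h.nsq_Y7 hε (hν y hy) (hS hy)
      (hτ y hy k hk) (he2 y hy) v).trans (avg_const hN _).le).trans ?_
    rw [← mul_sum, q7, mul_assoc _ (Ci / g)]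
    exact mul_le_mul_of_nonneg_left (h.sum_gc hS v) (by positivity)

end Crest.Agent.N334.AC.M7
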