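import Crest.Agent.N334.AC.L.Close
import Crest.Agent.N334.AC.P.One

/-! # S0520 (helper74): the Schur square `G ∘ G` under closing; one-step estimates -/

set_option autoImplicit false

open Finset Matrix Complex
open scoped Matrix.Norms.L2Operator

namespace Crest.Agent.N334.AC.M7

variable {ι : Type} [Fintype ι] [DecidableEq ι]

/-- column `y` of `G` on `O \ y` -/
noncomputable def gc (A : Matrix ι ι ℂ) (w : ι → ℂ) (O : Finset ι) (y : ι) : ι → ℂ :=
  cut (O.erase y) fun a => Gm A w a y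

/-- linear part -/
noncomputable def DGD (A : Matrix ι ι ℂ) (w : ι → ℂ) (O : Finset ι) (y : ι) : Matrix ι ι ℂ :=
  diagonal (gc A w O y) * cmp (Gm A w) O * diagonal (gc A w O y)

/-- martingale increment of the Schur square at the closing of `y` -/
noncomputable def Y7 (A : Matrix ι ι ℂ) (w : ι → ℂ) (O : Finset ι) (y : ι) (τ e : ℂ) :
    Matrix ι ι ℂ :=
  (-2 * τ) • DGD A w O y +
    (τ ^ 2 - e) • vecMulVec (fun a => gc A w O y a ^ 2) fun a => gc A w O y a ^ 2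

/-- Schur square -/
noncomputable abbrev RR (A : Matrix ι ι ℂ) (w : ι → ℂ) : Matrix ι ι ℂ :=
  Matrix.hadamard (Gm A w) (Gm A w)

variable {A : Matrix ι ι ℂ} {w : ι → ℂ} {O : Finset ι} {y : ι} {τ e : ℂ}

theorem RR_apply (a b : ι) : RR A w a b = Gm A w a b * Gm A w a b := rfl

theorem RR_symm (h : Adm A w) : (RR A w)ᵀ = RR A w := by
  ext a b; rw [transpose_apply, RR_apply, RR_apply, h.G_sym]

theorem gc_of_mem {a : ι} (ha : a ∈ O.erase y) : gc A w O y a = Gm A w a y := by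
  simp only [gc, cut, ha, if_true]

theorem gc_of_not {a : ι} (ha : a ∉ O.erase y) : gc A w O y a = 0 := by
  simp only [gc, cut, ha, if_false]

theorem norm_gc_le (a : ι) : ‖gc A w O y a‖ ≤ ‖Gm A w a y‖ := by
  by_cases ha : a ∈ O.erase y
  · rw [gc_of_mem ha]
  · rw [gc_of_not ha, norm_zero]; positivity

theorem DGD_apply (a b : ι) : DGD A w O y a b = gc A w O y a * Gm A w a b * gc A w O y b := by
  rw [DGD, mul_diagonal, diagonal_mul]
  by_cases ha : a ∈ O.erase y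
  · by_cases hb : b ∈ O.erase y
    · simp [cmp, mem_of_mem_erase ha, mem_of_mem_erase hb]
    · simp [gc_of_not hb]
  · simp [gc_of_not ha]

theorem Y7_apply (a b : ι) : Y7 A w O y τ e a b =
    -2 * τ * (gc A w O y a * Gm A w a b * gc A w O y b) +
      (τ ^ 2 - e) * (gc A w O y a ^ 2 * gc A w O y b ^ 2) := by
  simp [Y7, DGD_apply, vecMulVec_apply]

theorem Y7_symm (h : Adm A w) : (Y7 A w O y τ e)ᵀ = Y7 A w O y τ e := by
  ext a b
  rw [transpose_apply, Y7_apply, Y7_apply, h.G_sym b a]; ring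

theorem Y7_form_congr {u u' : ι → ℂ} (hu : ∀ x ∈ O.erase y, u x = u' x) :
    u ⬝ᵥ Y7 A w O y τ e *ᵥ u = u' ⬝ᵥ Y7 A w O y τ e *ᵥ u' := by
  simp only [dotProduct, mulVec, mul_sum]
  refine sum_congr rfl fun a _ => sum_congr rfl fun b _ => ?_
  by_cases ha : a ∈ O.erase y
  · by_cases hb : b ∈ O.erase y
    · rw [hu a ha, hu b hb]
    · simp [Y7_apply, gc_of_not hb]
  · simp [Y7_apply, gc_of_not ha]

theorem form_close (h : Adm A w) {v : ℝ} (hne : 1 + ((v : ℂ) - w y) * Gm A w y y ≠ 0) (e : ℂ)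
    {u : ι → ℂ} (hu : Supp u (O.erase y)) :
    u ⬝ᵥ RR A (cls1 w y v) *ᵥ u = u ⬝ᵥ RR A w *ᵥ u +
      u ⬝ᵥ Y7 A w O y (tau (Gm A w y y) (w y) v) e *ᵥ u + e * (∑ a, Gm A w a y ^ 2 * u a) ^ 2 := by
  rw [sq (∑ a, _), sum_mul_sum]
  simp only [dotProduct, mulVec, mul_sum, ← sum_add_distrib]
  refine sum_congr rfl fun a _ => sum_congr rfl fun b _ => ?_
  by_cases ha : a ∈ O.erase y
  · by_cases hb : b ∈ O.erase y
    · rw [RR_apply, RR_apply, h.close_G hne, Y7_apply, gc_of_mem ha, gc_of_mem hb,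
        h.G_sym y b]
      ring
    · simp [hu b hb]
  · simp [hu a ha]

/-- the Schur step -/
theorem schur_step (h : Adm A w) {a C : ℝ} (ha : 0 < a) (hC : ‖Gm A w y y‖ ≤ C)
    (he : ‖e‖ * (a + C ^ 2) ≤ 1) {u : ι → ℂ} (hu : u y = 0) :
    ∃ z : ℂ, a * nsq (Function.update u y z) -
      (Function.update u y z ⬝ᵥ RR A w *ᵥ Function.update u y z).re ≤
      a * nsq u - (u ⬝ᵥ RR A w *ᵥ u).re - (e * (∑ a, Gm A w a y ^ 2 * u a) ^ 2).re := by
  set s := ∑ a, Gm A w a y ^ 2 * u a with hs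
  set c := 1 / (a + C ^ 2) with hc
  have hc0 : 0 < c := by positivity
  have hc1 : c * (a + C ^ 2) = 1 := by rw [hc]; field_simp
  refine ⟨c * star s, ?_⟩
  set z : ℂ := c * star s with hz
  have e1 : Function.update u y z = u + Pi.single y z := by
    funext x
    by_cases hx : x = y
    · subst hx; simp [hu]
    · simp [hx]
  have e2 : nsq (Function.update u y z) = nsq u + ‖z‖ ^ 2 := by
    unfold nsq
    rw [← add_sum_erase _ _ (mem_univ y), ← add_sum_erase _ (fun i => ‖u i‖ ^ 2) (mem_univ y),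
      sum_congr rfl fun x hx => by rw [Function.update_of_ne (ne_of_mem_erase hx)]]
    simp [hu, add_comm]
  have e3 : Function.update u y z ⬝ᵥ RR A w *ᵥ Function.update u y z =
      u ⬝ᵥ RR A w *ᵥ u + 2 * (z * s) + z ^ 2 * Gm A w y y ^ 2 := by
    have h1 : u ⬝ᵥ RR A w *ᵥ Pi.single y z = z * s := by
      rw [hs, mul_sum, mulVec_single]
      exact sum_congr rfl fun x _ => by simp; ring
    have h2 : Pi.single y z ⬝ᵥ RR A w *ᵥ u = z * s := by
      rw [single_dotProduct, hs]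
      congr 1
      exact sum_congr rfl fun x _ => by
        change RR A w y x * _ = _
        rw [RR_apply, h.G_sym y x, sq]
    have h3 : Pi.single y z ⬝ᵥ RR A w *ᵥ Pi.single y z = z ^ 2 * Gm A w y y ^ 2 := by
      rw [single_dotProduct, mulVec_single]; simp; ring
    rw [e1, mulVec_add, add_dotProduct, dotProduct_add, dotProduct_add, h1, h2, h3]; ring
  have e4 : ‖z‖ = c * ‖s‖ := by
    rw [hz, norm_mul, norm_star, Complex.norm_real, Real.norm_of_nonneg hc0.le]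
  have e5 : (2 * (z * s)).re = 2 * (c * ‖s‖ ^ 2) := by
    have : z * s = ((c * ‖s‖ ^ 2 : ℝ) : ℂ) := by
      rw [hz, mul_assoc]; push_cast; congr 1; exact Complex.conj_mul' s
    rw [this]; simp only [mul_re, re_ofNat, ofReal_re, im_ofNat, ofReal_im]; ring
  have h6 : |(z ^ 2 * Gm A w y y ^ 2).re| ≤ (c * ‖s‖) ^ 2 * C ^ 2 := by
    refine (abs_re_le_norm _).trans ?_
    rw [norm_mul, norm_pow, norm_pow, e4]; gcongr
  have h7 : |(e * s ^ 2).re| ≤ c * ‖s‖ ^ 2 := by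
    refine (abs_re_le_norm _).trans ?_
    rw [norm_mul, norm_pow]
    gcongr
    rw [hc, le_div_iff₀ (by positivity)]; exact he
  rw [e2, e3, e4, add_re, add_re, e5]
  have h8 : a * (c * ‖s‖) ^ 2 + (c * ‖s‖) ^ 2 * C ^ 2 = c * ‖s‖ ^ 2 := by
    calc _ = c * (a + C ^ 2) * (c * ‖s‖ ^ 2) := by ring
      _ = _ := by rw [hc1, one_mul]
  have := (abs_le.1 h6).1
  have := (abs_le.1 h7).2
  linarith

omit [DecidableEq ι] in
/-- numerical radius of a complex symmetric matrix -/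
theorem form_le_of_re {R : Matrix ι ι ℂ} (hR : Rᵀ = R) {Q : Finset ι} {b : ℝ} (hb : 0 ≤ b)
    (h : ∀ u, Supp u Q → (u ⬝ᵥ R *ᵥ u).re ≤ b * nsq u) {x y : ι → ℂ} (hx : Supp x Q)
    (hy : Supp y Q) : ‖x ⬝ᵥ R *ᵥ y‖ ^ 2 ≤ b ^ 2 * (nsq x * nsq y) := by
  have hc : y ⬝ᵥ R *ᵥ x = x ⬝ᵥ R *ᵥ y := by
    rw [dotProduct_mulVec, ← mulVec_transpose, hR, dotProduct_comm]
  have key : ∀ p q : ℂ, 2 * (p * q * (x ⬝ᵥ R *ᵥ y)).re ≤
      b * (‖p‖ ^ 2 * nsq x + ‖q‖ ^ 2 * nsq y) := by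
    intro p q
    have h1 := h (p • x + q • y) fun a ha => by simp [hx a ha, hy a ha]
    have h2 := h (I • (p • x - q • y)) fun a ha => by simp [hx a ha, hy a ha]
    have e1 : (p • x + q • y) ⬝ᵥ R *ᵥ (p • x + q • y) +
        (I • (p • x - q • y)) ⬝ᵥ R *ᵥ (I • (p • x - q • y)) = 4 * (p * q * (x ⬝ᵥ R *ᵥ y)) := by
      simp only [mulVec_add, mulVec_sub, mulVec_smul, add_dotProduct, sub_dotProduct,
        dotProduct_add, dotProduct_sub, smul_dotProduct, dotProduct_smul, smul_eq_mul, hc]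
      linear_combination (p ^ 2 * (x ⬝ᵥ R *ᵥ x) - 2 * p * q * (x ⬝ᵥ R *ᵥ y) +
        q ^ 2 * (y ⬝ᵥ R *ᵥ y)) * I_mul_I
    have e2 : nsq (p • x + q • y) + nsq (I • (p • x - q • y)) =
        2 * (‖p‖ ^ 2 * nsq x + ‖q‖ ^ 2 * nsq y) := by
      rw [nsq_smul, norm_I, one_pow, one_mul, ← nsq_smul, ← nsq_smul]
      simp only [nsq, ← sum_add_distrib, mul_sum, Pi.add_apply, Pi.sub_apply]
      refine sum_congr rfl fun i _ => ?_
      have := parallelogram_law_with_norm ℂ ((p • x) i) ((q • y) i)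
      nlinarith
    have e3 := congrArg re e1
    rw [add_re] at e3
    simp only [mul_re (4 : ℂ), re_ofNat, im_ofNat, zero_mul, sub_zero] at e3
    nlinarith
  set t := x ⬝ᵥ R *ᵥ y
  have hX := nsq_nonneg x
  have hY := nsq_nonneg y
  rcases hY.eq_or_lt with h0 | h0
  · have : y = 0 := nsq_eq_zero h0.symm
    simp [t, this]
  have h1 := key ((b * nsq y : ℝ) : ℂ) (star t)
  have e : (((b * nsq y : ℝ) : ℂ) * star t * t).re = b * nsq y * ‖t‖ ^ 2 := by
    have : star t * t = ((‖t‖ ^ 2 : ℝ) : ℂ) := by push_cast; exact Complex.conj_mul' t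
    rw [mul_assoc, this, ← ofReal_mul, ofReal_re]
  rw [e, norm_star, Complex.norm_real, Real.norm_of_nonneg (by positivity)] at h1
  rcases hb.eq_or_lt with hb0 | hb0
  · have h2 := key 1 (star t)
    have e' : ((1 : ℂ) * star t * t).re = ‖t‖ ^ 2 := by
      have : star t * t = ((‖t‖ ^ 2 : ℝ) : ℂ) := by push_cast; exact Complex.conj_mul' t
      rw [one_mul, this, ofReal_re]
    rw [e', ← hb0] at h2
    rw [← hb0]; linarith
  · have : b * nsq y * ‖t‖ ^ 2 ≤ b * nsq y * (b ^ 2 * (nsq x * nsq y)) := by nlinarith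
    exact le_of_mul_le_mul_left this (by positivity)

/-- size data of the ports of `O` -/
structure Sz (A : Matrix ι ι ℂ) (w : ι → ℂ) (O : Finset ι) (g Ci : ℝ) : Prop where
  adm : Adm A w
  g0 : 0 < g
  C0 : 0 ≤ Ci
  gam_ge : ∀ x ∈ O, g ≤ gam w x
  im_le : ∀ x ∈ O, (Gm A w x x).im ≤ Ci

variable {g Ci : ℝ}

theorem Sz.row (h : Sz A w O g Ci) {a : ι} (ha : a ∈ O) {S : Finset ι} (hS : S ⊆ O) :
    ∑ b ∈ S, ‖Gm A w a b‖ ^ 2 ≤ Ci / g := by
  rw [le_div_iff₀ h.g0, sum_mul]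
  refine le_trans ?_ ((h.adm.ward_diag a).le.trans (h.im_le a ha))
  refine (sum_le_sum fun b hb => ?_).trans (sum_le_sum_of_subset_of_nonneg (subset_univ S)
    fun b _ _ => mul_nonneg (h.adm.diss b) (by positivity))
  rw [mul_comm]; gcongr; exact h.gam_ge b (hS hb)

theorem Sz.norm_Y7 (h : Sz A w O g Ci) {Cs ν τ1 : ℝ} (hCs : 0 ≤ Cs)
    (hs : ∀ a ∈ O.erase y, ‖Gm A w a y‖ ≤ Cs) (hν : ∑ b ∈ O.erase y, ‖Gm A w b y‖ ^ 4 ≤ ν)
    (hτ : ‖τ‖ ≤ τ1) (he : ‖e‖ ≤ τ1 ^ 2) :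
    ‖Y7 A w O y τ e‖ ≤ 2 * τ1 * Cs ^ 2 / g + 2 * τ1 ^ 2 * ν := by
  have hg := h.g0
  have hτ0 : 0 ≤ τ1 := (norm_nonneg _).trans hτ
  have hd : ‖diagonal (gc A w O y)‖ ≤ Cs := norm_diagonal_le hCs fun a => by
    by_cases ha : a ∈ O.erase y
    · rw [gc_of_mem ha]; exact hs a ha
    · rw [gc_of_not ha, norm_zero]; exact hCs
  have h1 : ‖DGD A w O y‖ ≤ Cs * (1 / g) * Cs :=
    (norm_mul_le _ _).trans (mul_le_mul ((norm_mul_le _ _).trans
      (mul_le_mul hd (h.adm.norm_cmp hg h.gam_ge) (norm_nonneg _) hCs)) hd (norm_nonneg _)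
      (by positivity))
  have hν0 : 0 ≤ ν := le_trans (by positivity) hν
  have hρ : nsq (fun a => gc A w O y a ^ 2) ≤ ν := by
    refine le_trans (le_of_eq ?_) hν
    rw [nsq, ← sum_subset (subset_univ (O.erase y)) fun a _ ha => by simp [gc_of_not ha]]
    exact sum_congr rfl fun a ha => by rw [gc_of_mem ha, norm_pow]; ring
  have h2 : ‖vecMulVec (fun a => gc A w O y a ^ 2) fun a => gc A w O y a ^ 2‖ ≤ ν := by
    refine abs_le_of_sq_le_sq' ((norm_sq_le_hs _).trans ?_) hν0 |>.2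
    simp only [vecMulVec_apply, norm_mul, mul_pow, ← mul_sum, ← sum_mul]
    rw [sq ν]
    exact mul_le_mul hρ hρ (nsq_nonneg _) hν0
  have h3 : ‖τ ^ 2 - e‖ ≤ 2 * τ1 ^ 2 := by
    refine (norm_sub_le _ _).trans ?_
    have : ‖τ ^ 2‖ ≤ τ1 ^ 2 := by rw [norm_pow]; gcongr
    linarith
  refine (norm_add_le _ _).trans (add_le_add ?_ ?_)
  · rw [norm_smul, norm_mul, norm_neg, Complex.norm_two]
    calc _ ≤ 2 * τ1 * (Cs * (1 / g) * Cs) := by gcongr
      _ = _ := by ring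
  · rw [norm_smul]; gcongr

theorem Sz.nsq_Y7 (h : Sz A w O g Ci) {ν τ1 ε : ℝ} (hε : 0 < ε)
    (hν : ∑ b ∈ O.erase y, ‖Gm A w b y‖ ^ 4 ≤ ν) (hy : y ∈ O) (hτ : ‖τ‖ ≤ τ1) (he : ‖e‖ ≤ τ1 ^ 2)
    (v : ι → ℂ) : nsq (Y7 A w O y τ e *ᵥ v) ≤
      (8 * τ1 ^ 2 * (ε / g ^ 2 + ν / ε * (Ci / g)) + 8 * τ1 ^ 4 * ν * (Ci / g)) *
        ∑ a, ‖gc A w O y a‖ ^ 2 * ‖v a‖ ^ 2 := by
  have hg := h.g0
  have hC := h.C0
  have hν0 : 0 ≤ ν := le_trans (by positivity) hν
  set x := diagonal (gc A w O y) *ᵥ v with hx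
  have hxn : ∑ a, ‖gc A w O y a‖ ^ 2 * ‖v a‖ ^ 2 = nsq x :=
    sum_congr rfl fun a _ => by rw [hx, mulVec_diagonal, norm_mul, mul_pow]
  have hx0 := nsq_nonneg x
  rw [hxn]
  have h1 : nsq (DGD A w O y *ᵥ v) ≤ (ε / g ^ 2 + ν / ε * (Ci / g)) * nsq x := by
    have e1 : nsq (DGD A w O y *ᵥ v) =
        ∑ b ∈ O.erase y, ‖Gm A w b y‖ ^ 2 * ‖(cmp (Gm A w) O *ᵥ x) b‖ ^ 2 := by
      rw [DGD, ← mulVec_mulVec, ← mulVec_mulVec, ← hx, nsq,
        ← sum_subset (subset_univ (O.erase y)) fun a _ ha => by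
          simp [mulVec_diagonal, gc_of_not ha]]
      exact sum_congr rfl fun b hb => by rw [mulVec_diagonal, gc_of_mem hb, norm_mul, mul_pow]
    have h2 := One.split (O.erase y) (fun b => Gm A w b y)
      (c := fun b => ‖(cmp (Gm A w) O *ᵥ x) b‖ ^ 2) (s1 := (1 / g) ^ 2 * nsq x)
      (si := Ci / g * nsq x) hε (fun _ _ => by positivity) (fun b hb => by
        refine (cs' (cmp (Gm A w) O b) x).trans ?_
        gcongr
        refine le_trans (le_of_eq ?_) (h.row (mem_of_mem_erase hb) subset_rfl)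
        rw [nsq, ← sum_subset (subset_univ O) fun a _ ha => by simp [cmp, ha]]
        exact sum_congr rfl fun a ha => by simp [cmp, ha, mem_of_mem_erase hb]) (by
        refine le_trans (sum_le_sum_of_subset_of_nonneg (subset_univ _) fun _ _ _ => by positivity)
          ((nsq_mulVec_le _ x).trans ?_)
        gcongr; exact h.adm.norm_cmp hg h.gam_ge)
    rw [e1]
    refine h2.trans ?_
    calc _ ≤ ε * ((1 / g) ^ 2 * nsq x) + ν / ε * (Ci / g * nsq x) := by gcongr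
      _ = _ := by ring
  have h2 : nsq ((vecMulVec (fun a => gc A w O y a ^ 2) fun a => gc A w O y a ^ 2) *ᵥ v) ≤
      ν * (Ci / g * nsq x) := by
    have e1 : (vecMulVec (fun a => gc A w O y a ^ 2) fun a => gc A w O y a ^ 2) *ᵥ v =
        (gc A w O y ⬝ᵥ x) • fun a => gc A w O y a ^ 2 := by
      funext a
      simp only [mulVec, dotProduct, vecMulVec_apply, Pi.smul_apply, smul_eq_mul, sum_mul]
      exact sum_congr rfl fun b _ => by
        change _ = _ * x b * _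
        rw [hx, mulVec_diagonal]; ring
    have hρ : nsq (fun a => gc A w O y a ^ 2) ≤ ν := by
      refine le_trans (le_of_eq ?_) hν
      rw [nsq, ← sum_subset (subset_univ (O.erase y)) fun a _ ha => by simp [gc_of_not ha]]
      exact sum_congr rfl fun a ha => by rw [gc_of_mem ha, norm_pow]; ring
    have hg1 : nsq (gc A w O y) ≤ Ci / g := by
      rw [gc, nsq_cut]
      simpa only [h.adm.G_sym y] using h.row hy (erase_subset y O)
    rw [e1, nsq_smul, mul_comm]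
    exact mul_le_mul hρ ((cs' _ _).trans (by gcongr)) (by positivity) hν0
  have h3 : ‖τ ^ 2 - e‖ ≤ 2 * τ1 ^ 2 := by
    refine (norm_sub_le _ _).trans ?_
    have : ‖τ ^ 2‖ ≤ τ1 ^ 2 := by rw [norm_pow]; gcongr
    linarith
  rw [Y7, add_mulVec, smul_mulVec, smul_mulVec]
  refine (nsq_add_le _ _).trans ?_
  rw [nsq_smul, nsq_smul, norm_mul, norm_neg, Complex.norm_two]
  have := nsq_nonneg (DGD A w O y *ᵥ v)
  have := nsq_nonneg ((vecMulVec (fun a => gc A w O y a ^ 2) fun a => gc A w O y a ^ 2) *ᵥ v)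
  calc _ ≤ 2 * ((2 * τ1) ^ 2 * ((ε / g ^ 2 + ν / ε * (Ci / g)) * nsq x)) +
        2 * ((2 * τ1 ^ 2) ^ 2 * (ν * (Ci / g * nsq x))) := by gcongr
    _ = _ := by ring

theorem Sz.sum_gc (h : Sz A w O g Ci) {S : Finset ι} (hS : S ⊆ O) (v : ι → ℂ) :
    ∑ y ∈ S, ∑ a, ‖gc A w O y a‖ ^ 2 * ‖v a‖ ^ 2 ≤ Ci / g * nsq v := by
  rw [sum_comm, nsq, mul_sum]
  refine sum_le_sum fun a _ => ?_
  rw [← sum_mul]
  gcongr
  by_cases ha : a ∈ O
  · exact (sum_le_sum fun y _ => by gcongr; exact norm_gc_le a).trans (h.row ha hS)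
  · have := h.g0
    have := h.C0
    rw [sum_eq_zero fun y _ => by rw [gc_of_not fun h => ha (mem_of_mem_erase h)]; simp]
    positivity

theorem Sz.drift (h : Sz A w O g Ci) {S : Finset ι} (hS : S ⊆ O) {β : ι → ℂ} {b : ℝ} (hb : 0 ≤ b)
    (hβ : ∀ y ∈ S, ‖β y‖ ≤ b * gam w y) :
    ‖∑ y ∈ S, (-2 * β y) • DGD A w O y‖ ≤ 2 * b * Ci / g := by
  have hg := h.g0
  have hC := h.C0
  have hγ : ∀ y ∈ S, 0 < gam w y := fun y hy => hg.trans_le (h.gam_ge y (hS hy))
  set P : Matrix ι ι ℂ := fun a y =>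
    if y ∈ S then -2 * β y / (√(gam w y) : ℝ) * gc A w O y a else 0 with hP
  set Q : Matrix ι ι ℂ := fun a y => if y ∈ S then (√(gam w y) : ℝ) * gc A w O y a else 0 with hQ
  have e : ∑ y ∈ S, (-2 * β y) • DGD A w O y = Matrix.hadamard (cmp (Gm A w) O) (P * Qᵀ) := by
    ext a c
    rw [Matrix.sum_apply, hadamard_apply, Matrix.mul_apply, mul_sum,
      ← sum_subset (subset_univ S) fun y _ hy => by simp [hP, hy]]
    refine sum_congr rfl fun y hy => ?_
    have : ((√(gam w y) : ℝ) : ℂ) ≠ 0 := ofReal_ne_zero.2 (Real.sqrt_pos.2 (hγ y hy)).ne'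
    simp only [Matrix.smul_apply, DGD, mul_diagonal, diagonal_mul, hP, hQ, transpose_apply, hy,
      if_true, smul_eq_mul]
    field_simp
  have hrow : ∀ a, ∑ y ∈ S, gam w y * ‖gc A w O y a‖ ^ 2 ≤ Ci := by
    intro a
    by_cases ha : a ∈ O
    · refine le_trans ?_ ((h.adm.ward_diag a).le.trans (h.im_le a ha))
      refine (sum_le_sum fun y hy => ?_).trans (sum_le_sum_of_subset_of_nonneg (subset_univ S)
        fun b _ _ => mul_nonneg (h.adm.diss b) (by positivity))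
      have := hγ y hy
      gcongr; exact norm_gc_le a
    · rw [sum_eq_zero fun y _ => by rw [gc_of_not fun h => ha (mem_of_mem_erase h)]; simp]
      exact hC
  rw [e]
  refine (norm_hadamard_le _ P Q (a := 2 * b * √Ci) (b := √Ci) (by positivity) (by positivity)
    (fun a => ?_) fun a => ?_).trans ?_
  · rw [← sum_subset (subset_univ S) fun y _ hy => by simp [hP, hy], mul_pow, Real.sq_sqrt hC]
    refine le_trans ?_ (mul_le_mul_of_nonneg_left (hrow a) (by positivity))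
    rw [mul_sum]
    refine sum_le_sum fun y hy => ?_
    have h1 := hγ y hy
    simp only [hP, hy, if_true, norm_mul, norm_div, norm_neg, Complex.norm_two, Complex.norm_real,
      Real.norm_of_nonneg (Real.sqrt_nonneg _), mul_pow, div_pow, Real.sq_sqrt h1.le]
    calc _ ≤ 2 ^ 2 * (b * gam w y) ^ 2 / gam w y * ‖gc A w O y a‖ ^ 2 := by
          gcongr; exact hβ y hy
      _ = _ := by field_simp
  · rw [← sum_subset (subset_univ S) fun y _ hy => by simp [hQ, hy], Real.sq_sqrt hC]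
    refine le_trans (le_of_eq (sum_congr rfl fun y hy => ?_)) (hrow a)
    simp only [hQ, hy, if_true, norm_mul, Complex.norm_real,
      Real.norm_of_nonneg (Real.sqrt_nonneg _), mul_pow, Real.sq_sqrt (hγ y hy).le]
  · have := h.adm.norm_cmp hg h.gam_ge
    calc _ ≤ 1 / g * (2 * b * √Ci) * √Ci := by gcongr
      _ = 2 * b * (√Ci * √Ci) / g := by ring
      _ = _ := by rw [Real.mul_self_sqrt hC]

end Crest.Agent.N334.AC.M7
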